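import Vale.Agent.P122.H84.One

/-! # P122 / H84 : local constancy and orthogonality in normalised coordinates (helper84)

`U(t) = ∫ g(ξ) e(∑ tᵢ pᵢ(ξ)) dμ(ξ)`, `t ∈ ℝ³`, for an arbitrary measure space. -/

open MeasureTheory Complex Set
open scoped ENNReal NNReal ContDiff FourierTransform SchwartzMap

set_option linter.all false

namespace Vale.Agent.P122.H84

abbrev V3 := Fin 3 → ℝ

variable {Ξ : Type*} [MeasurableSpace Ξ]

/-- the superposition of exponentials in normalised coordinates -/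
noncomputable def UU (μ : Measure Ξ) (p : Ξ → V3) (g : Ξ → ℂ) (t : V3) : ℂ := ∫ ξ, g ξ * ee (∑ i, t i * p ξ i) ∂μ

lemma UU_bd (μ : Measure Ξ) (p : Ξ → V3) (g : Ξ → ℂ) (t : V3) : ‖UU μ p g t‖ ≤ ∫ ξ, ‖g ξ‖ ∂μ := by
  unfold UU
  refine (norm_integral_le_integral_norm _).trans (le_of_eq ?_)
  congr 1
  ext ξ
  rw [norm_mul, norm_ee, mul_one]

lemma UU_int {μ : Measure Ξ} {p : Ξ → V3} {g : Ξ → ℂ} (hp : Measurable p) (hg : Integrable g μ) (t : V3) :
    Integrable (fun ξ => g ξ * ee (∑ i, t i * p ξ i)) μ := by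
  refine hg.mul_bdd (c := 1) ?_ ?_
  · apply Measurable.aestronglyMeasurable
    fun_prop
  · exact Filter.Eventually.of_forall fun y => by rw [norm_ee]

lemma UU_cont {μ : Measure Ξ} {p : Ξ → V3} {g : Ξ → ℂ} (hp : Measurable p) (hg : Integrable g μ) :
    Continuous (UU μ p g) := by
  unfold UU
  refine continuous_of_dominated (bound := fun ξ => ‖g ξ‖) ?_ ?_ hg.norm ?_
  · intro t
    exact (UU_int hp hg t).aestronglyMeasurable
  · intro t
    exact Filter.Eventually.of_forall fun y => by rw [norm_mul, norm_ee, mul_one]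
  · refine Filter.Eventually.of_forall fun ξ => ?_
    fun_prop

/-- `l¹` norm -/
noncomputable def l1 (t : V3) : ℝ := |t 0| + |t 1| + |t 2|

lemma l1_nonneg (t : V3) : 0 ≤ l1 t := by unfold l1; positivity

@[fun_prop]
lemma l1_cont : Continuous l1 := by unfold l1; fun_prop

/-- polynomial weight -/
noncomputable def wt (M : ℕ) (t : V3) : ℝ≥0∞ := ENNReal.ofReal (((1 + l1 t) ^ M)⁻¹)

lemma wt_meas (M : ℕ) : Measurable (wt M) := by
  unfold wt
  have := l1_cont.measurable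
  fun_prop

lemma one_add_l1_le (t : V3) : 1 + l1 t ≤ ∏ i, (1 + |t i|) := by
  unfold l1
  rw [Fin.prod_univ_three]
  have h0 := abs_nonneg (t 0)
  have h1 := abs_nonneg (t 1)
  have h2 := abs_nonneg (t 2)
  nlinarith [mul_nonneg h0 h1, mul_nonneg h0 h2, mul_nonneg h1 h2, mul_nonneg (mul_nonneg h0 h1) h2]

lemma ee_sum (η : V3) (t : V3) : ee (∑ i, t i * η i) = ∏ i, ee (t i * η i) := by
  rw [Fin.sum_univ_three, Fin.prod_univ_three, ee_add, ee_add]

/-- Cauchy-Schwarz -/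
lemma cs_lint {α : Type*} [MeasurableSpace α] {μ : Measure α} {f h : α → ℝ≥0∞} (hf : AEMeasurable f μ)
    (hh : AEMeasurable h μ) : (∫⁻ a, f a * h a ∂μ) ^ 2 ≤ (∫⁻ a, f a ∂μ) * ∫⁻ a, f a * h a ^ 2 ∂μ := by
  have h2 : Real.HolderConjugate 2 2 := Real.HolderConjugate.two_two
  have key := ENNReal.lintegral_mul_le_Lp_mul_Lq μ h2 (f := fun a => f a ^ (1/2 : ℝ)) (g := fun a => f a ^ (1/2 : ℝ) * h a)
    (hf.pow_const _) ((hf.pow_const _).mul hh)
  have e1 : ∀ a, ((fun a => f a ^ (1/2 : ℝ)) * fun a => f a ^ (1/2 : ℝ) * h a) a = f a * h a := by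
    intro a
    simp only [Pi.mul_apply]
    rw [← mul_assoc, ← ENNReal.rpow_add_of_nonneg _ _ (by norm_num) (by norm_num)]
    norm_num
  have e2 : ∀ a, (f a ^ (1/2 : ℝ)) ^ (2:ℝ) = f a := by
    intro a
    rw [← ENNReal.rpow_mul]; norm_num
  have e3 : ∀ a, (f a ^ (1/2 : ℝ) * h a) ^ (2:ℝ) = f a * h a ^ 2 := by
    intro a
    rw [ENNReal.mul_rpow_of_nonneg _ _ (by norm_num), e2]
    norm_num
  simp_rw [e1, e2, e3] at key
  calc (∫⁻ a, f a * h a ∂μ) ^ 2 ≤ ((∫⁻ a, f a ∂μ) ^ (1/2 : ℝ) * (∫⁻ a, f a * h a ^ 2 ∂μ) ^ (1/2 : ℝ)) ^ 2 := by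
        gcongr
    _ = _ := by
        rw [mul_pow, ← ENNReal.rpow_natCast, ← ENNReal.rpow_natCast, ← ENNReal.rpow_mul, ← ENNReal.rpow_mul]
        norm_num

/-- [LC] -/
theorem lc (M : ℕ) : ∃ C : ℝ, 0 ≤ C ∧ ∀ (Ξ : Type) [MeasurableSpace Ξ] (μ : Measure Ξ) [SFinite μ] (p : Ξ → V3) (g : Ξ → ℂ),
    Measurable p → Integrable g μ → (∀ ξ, g ξ ≠ 0 → ∀ i, |p ξ i| ≤ 1) →
    ‖UU μ p g 0‖ₑ ^ 2 ≤ ENNReal.ofReal C * ∫⁻ t, ‖UU μ p g t‖ₑ ^ 2 * wt M t := by
  obtain ⟨κ, hκ⟩ := exists_ker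
  obtain ⟨C0, hC0, hd⟩ := decay κ M
  set K : V3 → ℂ := fun t => ∏ i, κ (t i) with hK
  have hKi : Integrable K := by
    have := Integrable.fintype_prod (ι := Fin 3) (f := fun _ => (κ : ℝ → ℂ)) (μ := fun _ => (volume : Measure ℝ))
      (fun _ => κ.integrable)
    exact this
  have hKc : Continuous K := by
    have := κ.continuous
    fun_prop
  have hK1 : ∀ η : V3, (∀ i, |η i| ≤ 1) → ∫ t, K t * ee (∑ i, t i * η i) = 1 := by
    intro η hη
    have : ∀ t : V3, K t * ee (∑ i, t i * η i) = ∏ i, (fun (i : Fin 3) (s : ℝ) => κ s * ee (s * η i)) i (t i) := by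
      intro t
      rw [ee_sum, hK]
      simp only
      rw [← Finset.prod_mul_distrib]
    rw [integral_congr_ae (Filter.Eventually.of_forall this)]
    refine (integral_fintype_prod_volume_eq_prod (𝕜 := ℂ)
      (fun (i : Fin 3) (s : ℝ) => κ s * ee (s * η i))).trans ?_
    apply Finset.prod_eq_one
    intro i _
    exact hκ _ (hη i)
  have hKd : ∀ t, ‖K t‖ ≤ C0 ^ 3 * ((1 + l1 t) ^ M)⁻¹ := by
    intro t
    rw [hK]
    simp only
    rw [norm_prod]
    calc ∏ i, ‖κ (t i)‖ ≤ ∏ i, (C0 * ((1 + |t i|) ^ M)⁻¹) := by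
          apply Finset.prod_le_prod
          · intro i _; exact norm_nonneg _
          · intro i _; exact hd _
      _ = C0 ^ 3 * ((∏ i, (1 + |t i|)) ^ M)⁻¹ := by
          rw [Finset.prod_mul_distrib, Finset.prod_const, Finset.prod_inv_distrib, Finset.prod_pow]
          simp
      _ ≤ _ := by
          have h1 := one_add_l1_le t
          have h2 := l1_nonneg t
          have h3 : (1 + l1 t) ^ M ≤ (∏ i, (1 + |t i|)) ^ M := pow_le_pow_left₀ (by linarith) h1 M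
          have h4 : ((∏ i, (1 + |t i|)) ^ M)⁻¹ ≤ ((1 + l1 t) ^ M)⁻¹ := by
            apply inv_anti₀ _ h3
            have : 0 < 1 + l1 t := by linarith
            positivity
          gcongr
  refine ⟨(∫ t, ‖K t‖) * C0 ^ 3, by positivity, ?_⟩
  intro Ξ _ μ _ p g hp hg hsupp
  have hrep : UU μ p g 0 = ∫ t, K t * UU μ p g t := by
    have e1 : ∀ t, K t * UU μ p g t = ∫ ξ, K t * (g ξ * ee (∑ i, t i * p ξ i)) ∂μ := by
      intro t
      unfold UU
      rw [integral_const_mul]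
    simp_rw [e1]
    rw [integral_integral_swap]
    · unfold UU
      apply integral_congr_ae
      refine Filter.Eventually.of_forall fun ξ => ?_
      simp only [Pi.zero_apply, zero_mul, Finset.sum_const_zero, ee_zero, mul_one]
      by_cases hξ : g ξ = 0
      · simp [hξ]
      · have h1 := hK1 (p ξ) (hsupp ξ hξ)
        have : ∀ t, K t * (g ξ * ee (∑ i, t i * p ξ i)) = g ξ * (K t * ee (∑ i, t i * p ξ i)) := by
          intro t; ring
        simp_rw [this]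
        rw [integral_const_mul, h1, mul_one]
    · have hmul : Integrable (fun z : V3 × Ξ => K z.1 * g z.2) (volume.prod μ) := hKi.mul_prod hg
      have : Function.uncurry (fun (t : V3) (ξ : Ξ) => K t * (g ξ * ee (∑ i, t i * p ξ i)))
          = fun z : V3 × Ξ => (K z.1 * g z.2) * ee (∑ i, z.1 i * p z.2 i) := by
        ext ⟨t, ξ⟩
        simp only [Function.uncurry]
        ring
      rw [this]
      refine hmul.mul_bdd (c := 1) ?_ ?_
      · apply Measurable.aestronglyMeasurable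
        fun_prop
      · exact Filter.Eventually.of_forall fun y => by rw [norm_ee]
  have hUc := UU_cont hp hg
  have h1 : ‖UU μ p g 0‖ₑ ≤ ∫⁻ t, ‖K t‖ₑ * ‖UU μ p g t‖ₑ := by
    rw [hrep]
    refine (enorm_integral_le_lintegral_enorm _).trans (le_of_eq ?_)
    simp_rw [enorm_mul]
  have hKm : AEMeasurable (fun t => ‖K t‖ₑ) volume := hKc.measurable.enorm.aemeasurable
  have hUm : AEMeasurable (fun t => ‖UU μ p g t‖ₑ) volume := hUc.measurable.enorm.aemeasurable
  calc ‖UU μ p g 0‖ₑ ^ 2 ≤ (∫⁻ t, ‖K t‖ₑ * ‖UU μ p g t‖ₑ) ^ 2 := by gcongr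
    _ ≤ (∫⁻ t, ‖K t‖ₑ) * ∫⁻ t, ‖K t‖ₑ * ‖UU μ p g t‖ₑ ^ 2 := cs_lint hKm hUm
    _ ≤ ENNReal.ofReal (∫ t, ‖K t‖) * ∫⁻ t, ENNReal.ofReal (C0 ^ 3) * (‖UU μ p g t‖ₑ ^ 2 * wt M t) := by
        apply mul_le_mul'
        · rw [ofReal_integral_norm_eq_lintegral_enorm hKi]
        · apply lintegral_mono
          intro t
          have : ‖K t‖ₑ ≤ ENNReal.ofReal (C0 ^ 3) * wt M t := by
            unfold wt
            rw [← ENNReal.ofReal_mul (by positivity), ← ofReal_norm_eq_enorm]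
            exact ENNReal.ofReal_le_ofReal (hKd t)
          calc ‖K t‖ₑ * ‖UU μ p g t‖ₑ ^ 2 ≤ (ENNReal.ofReal (C0 ^ 3) * wt M t) * ‖UU μ p g t‖ₑ ^ 2 := by gcongr
            _ = _ := by ring
    _ = _ := by
        rw [lintegral_const_mul' _ _ ENNReal.ofReal_ne_top, ← mul_assoc, ← ENNReal.ofReal_mul (by positivity)]

end Vale.Agent.P122.H84
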