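import Mathlib

/-! # P122 / H84 : the one-dimensional analysis of superpositions of exponentials (helper84)

For a measure space `(Ξ, μ)`, a measurable `P : Ξ → ℝ` and `g ∈ L¹(μ)` let `u(s) = ∫ g(ξ) e(s P(ξ)) dμ(ξ)`.
Kernels: a Schwartz function whose Fourier transform is one on `[-1, 1]`, and a nonnegative function `FF`, bounded
from below on `[-1, 1]`, whose Fourier transform vanishes outside `[-1, 1]`. -/

open MeasureTheory Complex Set
open scoped ENNReal NNReal ContDiff FourierTransform SchwartzMap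

set_option linter.all false

namespace Vale.Agent.P122.H84

/-- `e(t) = exp (2 π i t)` -/
noncomputable def ee (t : ℝ) : ℂ := cexp (2 * Real.pi * I * (t : ℂ))

lemma norm_ee (t : ℝ) : ‖ee t‖ = 1 := by
  unfold ee
  rw [show 2 * (Real.pi:ℂ) * I * (t:ℂ) = ((2 * Real.pi * t : ℝ) : ℂ) * I by push_cast; ring,
    Complex.norm_exp_ofReal_mul_I]

lemma ee_add (a b : ℝ) : ee (a + b) = ee a * ee b := by
  unfold ee
  rw [← Complex.exp_add]
  congr 1
  push_cast
  ring

lemma ee_zero : ee 0 = 1 := by simp [ee]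

lemma conj_ee (a : ℝ) : (starRingEnd ℂ) (ee a) = ee (-a) := by
  unfold ee
  rw [← Complex.exp_conj]
  congr 1
  simp only [map_mul, Complex.conj_I, Complex.conj_ofReal, map_ofNat]
  push_cast
  ring

@[fun_prop]
lemma continuous_ee : Continuous ee := by
  unfold ee
  fun_prop

@[fun_prop]
lemma measurable_ee : Measurable ee := continuous_ee.measurable

lemma char_eq (t : ℝ) (z : ℂ) : (Real.fourierChar t) • z = z * ee t := by
  rw [Circle.smul_def, Real.fourierChar_apply]
  unfold ee
  rw [smul_eq_mul, mul_comm]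
  congr 2
  push_cast
  ring

/-- a smooth bump as a Schwartz function -/
noncomputable def bS (b : ContDiffBump (0:ℝ)) : 𝓢(ℝ, ℂ) :=
  HasCompactSupport.toSchwartzMap (f := fun x => ((b x : ℝ) : ℂ))
    (b.hasCompactSupport.comp_left (g := fun x : ℝ => (x:ℂ)) (by simp))
    (Complex.ofRealCLM.contDiff.comp b.contDiff)

lemma bS_apply (b : ContDiffBump (0:ℝ)) (x : ℝ) : bS b x = ((b x : ℝ) : ℂ) := rfl

lemma decay (κ : 𝓢(ℝ, ℂ)) (M : ℕ) : ∃ C : ℝ, 0 ≤ C ∧ ∀ s : ℝ, ‖κ s‖ ≤ C * ((1 + |s|) ^ M)⁻¹ := by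
  refine ⟨2 ^ M * (Finset.Iic (M, 0)).sup (fun m => SchwartzMap.seminorm ℝ m.1 m.2) κ, ?_, ?_⟩
  · positivity
  intro s
  have h := SchwartzMap.one_add_le_sup_seminorm_apply (𝕜 := ℝ) (m := (M, 0)) (k := M) (n := 0) le_rfl le_rfl κ s
  simp only [norm_iteratedFDeriv_zero, Real.norm_eq_abs] at h
  rw [← div_eq_mul_inv, le_div_iff₀ (by positivity)]
  linarith

/-- inverse Fourier transform of the Fourier transform -/
lemma inv_four (f : 𝓢(ℝ, ℂ)) (η : ℝ) : ∫ s, (𝓕 f) s * ee (s * η) = f η := by
  have h : 𝓕⁻ (𝓕 f) = f := FourierTransform.fourierInv_fourier_eq f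
  have h2 : (𝓕⁻ (𝓕 f)) η = f η := by rw [h]
  rw [← h2, SchwartzMap.fourierInv_coe, Real.fourierInv_eq]
  apply integral_congr_ae
  refine Filter.Eventually.of_forall fun s => ?_
  simp only
  rw [char_eq]
  congr 2
  simp [mul_comm]

/-- the kernel of local constancy -/
lemma exists_ker : ∃ κ : 𝓢(ℝ, ℂ), ∀ η : ℝ, |η| ≤ 1 → ∫ s, κ s * ee (s * η) = 1 := by
  let b : ContDiffBump (0:ℝ) := ⟨1, 2, by norm_num, by norm_num⟩
  refine ⟨𝓕 (bS b), fun η hη => ?_⟩
  rw [inv_four, bS_apply, b.one_of_mem_closedBall]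
  · simp
  · simpa [Metric.mem_closedBall, Real.dist_eq] using hη

/-- the band-limited nonnegative function -/
lemma exists_FF : ∃ F : ℝ → ℝ, Continuous F ∧ (∀ s, 0 ≤ F s) ∧ (∃ c : ℝ, 0 < c ∧ ∀ s, |s| ≤ 1 → c ≤ F s) ∧
    (∀ M : ℕ, ∃ C : ℝ, 0 ≤ C ∧ ∀ s : ℝ, F s ≤ C * ((1 + |s|) ^ M)⁻¹) ∧
    (∀ η : ℝ, 1 ≤ |η| → ∫ s, (F s : ℂ) * ee (s * η) = 0) := by
  let b : ContDiffBump (0:ℝ) := ⟨1/16, 1/8, by norm_num, by norm_num⟩
  let ψ := bS b
  refine ⟨fun s => ‖(𝓕 ψ) s‖ ^ 2, ?_, ?_, ?_, ?_, ?_⟩
  · have := (𝓕 ψ).continuous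
    fun_prop
  · intro s; positivity
  · -- lower bound
    have hbi : Integrable (fun y : ℝ => b y) := b.continuous.integrable_of_hasCompactSupport b.hasCompactSupport
    have hpos : 0 < ∫ y : ℝ, b y := b.integral_pos
    refine ⟨(Real.cos (Real.pi / 4) * ∫ y : ℝ, b y) ^ 2, ?_, ?_⟩
    · have : 0 < Real.cos (Real.pi / 4) := Real.cos_pos_of_mem_Ioo ⟨by linarith [Real.pi_pos], by linarith [Real.pi_pos]⟩
      positivity
    intro s hs
    have hc0 : 0 < Real.cos (Real.pi / 4) := Real.cos_pos_of_mem_Ioo ⟨by linarith [Real.pi_pos], by linarith [Real.pi_pos]⟩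
    have h1 : (𝓕 ψ) s = ∫ y : ℝ, ((b y : ℝ) : ℂ) * ee (-(y * s)) := by
      rw [SchwartzMap.fourier_coe, Real.fourier_real_eq]
      apply integral_congr_ae
      refine Filter.Eventually.of_forall fun y => ?_
      simp only
      rw [char_eq]
      rfl
    have hint : Integrable (fun y : ℝ => ((b y : ℝ) : ℂ) * ee (-(y * s))) := by
      refine (hbi.ofReal (𝕜 := ℂ)).mul_bdd (c := 1) ?_ ?_
      · exact (by fun_prop : Continuous fun y : ℝ => ee (-(y * s))).aestronglyMeasurable
      · exact Filter.Eventually.of_forall fun y => by rw [norm_ee]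
    have key : Real.cos (Real.pi / 4) * ∫ y : ℝ, b y ≤ ‖∫ y : ℝ, ((b y : ℝ) : ℂ) * ee (-(y * s))‖ := by
      calc Real.cos (Real.pi / 4) * ∫ y : ℝ, b y = ∫ y : ℝ, Real.cos (Real.pi / 4) * b y := by
            rw [integral_const_mul]
        _ ≤ ∫ y : ℝ, (((b y : ℝ) : ℂ) * ee (-(y * s))).re := by
            apply integral_mono (hbi.const_mul _) hint.re
            intro y
            simp only
            have he : (((b y : ℝ) : ℂ) * ee (-(y * s))).re = b y * Real.cos (2 * Real.pi * (y * s)) := by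
              rw [Complex.re_ofReal_mul]
              congr 1
              unfold ee
              rw [show 2 * (Real.pi:ℂ) * I * ((-(y * s) : ℝ):ℂ) = ((-(2 * Real.pi * (y * s)) : ℝ) : ℂ) * I by push_cast; ring,
                Complex.exp_ofReal_mul_I_re, Real.cos_neg]
            have he' : RCLike.re (((b y : ℝ) : ℂ) * ee (-(y * s))) = b y * Real.cos (2 * Real.pi * (y * s)) := he
            rw [he']
            by_cases hy : |y| ≤ 1/8
            · rw [mul_comm]
              apply mul_le_mul_of_nonneg_left _ b.nonneg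
              rw [← Real.cos_abs (2 * Real.pi * (y * s))]
              apply Real.cos_le_cos_of_nonneg_of_le_pi (by positivity) (by linarith [Real.pi_pos])
              rw [abs_mul, abs_mul, abs_mul]
              rw [abs_of_pos (by norm_num : (0:ℝ) < 2), abs_of_pos Real.pi_pos]
              have : |y| * |s| ≤ 1/8 * 1 := by
                apply mul_le_mul hy hs (abs_nonneg _) (by norm_num)
              nlinarith [Real.pi_pos]
            · have : b y = 0 := by
                apply b.zero_of_le_dist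
                rw [Real.dist_eq, sub_zero]
                push Not at hy
                exact hy.le
              rw [this]; simp
        _ = (∫ y : ℝ, ((b y : ℝ) : ℂ) * ee (-(y * s))).re := by
            exact integral_re hint
        _ ≤ ‖∫ y : ℝ, ((b y : ℝ) : ℂ) * ee (-(y * s))‖ := Complex.re_le_norm _
    rw [← h1] at key
    have h0 : 0 ≤ Real.cos (Real.pi / 4) * ∫ y : ℝ, b y := by positivity
    exact pow_le_pow_left₀ h0 key 2
  · intro M
    obtain ⟨C, hC, h⟩ := decay (𝓕 ψ) M
    obtain ⟨C', hC', h'⟩ := decay (𝓕 ψ) 0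
    refine ⟨C' * C, by positivity, fun s => ?_⟩
    have h1 := h s
    have h2 := h' s
    simp only [pow_zero, inv_one, mul_one] at h2
    simp only
    rw [sq]
    calc ‖(𝓕 ψ) s‖ * ‖(𝓕 ψ) s‖ ≤ C' * (C * ((1 + |s|) ^ M)⁻¹) := by
          apply mul_le_mul h2 h1 (norm_nonneg _) hC'
      _ = _ := by ring
  · intro η hη
    -- Plancherel with the translate
    have hP := SchwartzMap.integral_inner_fourier_fourier ψ (ψ.compSubConstCLM ℝ (-η))
    have hL : ∀ s : ℝ, (inner ℂ ((𝓕 ψ) s) ((𝓕 (ψ.compSubConstCLM ℝ (-η))) s) : ℂ)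
        = ((‖(𝓕 ψ) s‖ ^ 2 : ℝ) : ℂ) * ee (s * η) := by
      intro s
      have h3 : (𝓕 (ψ.compSubConstCLM ℝ (-η))) s = (𝓕 ψ) s * ee (s * η) := by
        rw [SchwartzMap.fourier_coe, SchwartzMap.fourier_coe, Real.fourier_real_eq, Real.fourier_real_eq]
        rw [← integral_mul_const]
        have := integral_add_right_eq_self (μ := (volume : Measure ℝ))
          (fun v : ℝ => Real.fourierChar (-(v * s)) • (ψ.compSubConstCLM ℝ (-η)) v) (-η)
        rw [← this]
        apply integral_congr_ae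
        refine Filter.Eventually.of_forall fun y => ?_
        simp only [SchwartzMap.compSubConstCLM_apply]
        rw [char_eq, char_eq]
        rw [show y + -η - -η = y by ring, mul_assoc, ← ee_add]
        congr 2
        ring
      rw [h3]
      rw [RCLike.inner_apply]
      have h5 : (𝓕 ψ) s * (starRingEnd ℂ) ((𝓕 ψ) s) = ((‖(𝓕 ψ) s‖ : ℝ) : ℂ) ^ 2 := Complex.mul_conj' _
      push_cast
      rw [← h5]
      ring
    have hR : ∀ x : ℝ, (inner ℂ (ψ x) ((ψ.compSubConstCLM ℝ (-η)) x) : ℂ) = 0 := by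
      intro x
      rw [SchwartzMap.compSubConstCLM_apply]
      by_cases hx : |x| < 1/8
      · have : ψ (x - -η) = 0 := by
          change ((b (x - -η) : ℝ) : ℂ) = 0
          rw [b.zero_of_le_dist]
          · simp
          · rw [Real.dist_eq, sub_zero]
            have h4 : |η| ≤ |x - -η| + |x| := by
              have := abs_sub_abs_le_abs_sub (x - -η) x
              calc |η| = |(x - -η) - x| := by congr 1; ring
                _ ≤ _ := abs_sub _ _
            change (1/8 : ℝ) ≤ _
            linarith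
        rw [this]; simp
      · have : ψ x = 0 := by
          change ((b x : ℝ) : ℂ) = 0
          rw [b.zero_of_le_dist]
          · simp
          · rw [Real.dist_eq, sub_zero]
            push Not at hx
            exact hx
        rw [this]; simp
    simp_rw [hL, hR] at hP
    simpa using hP

end Vale.Agent.P122.H84
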