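import Vale.Agent.P122.H84.Orth
import Vale.Agent.P122.W840.Int

/-! # P122 / H84 : [ORT] orthogonality up to overlaps on sheared boxes, `AN.StORT` (helper84) -/

open MeasureTheory Complex Set
open scoped ENNReal NNReal ContDiff FourierTransform

set_option linter.all false

namespace Vale.Agent.P122.H84

open Vale.Agent.P122.C2 Vale.Agent.P122.AN

/-- dual coordinates -/
noncomputable def dco (θ ρ1 ρ2 ρ3 : ℝ) (s : Fin 2 → ℝ) (ξ : E3) : V3 :=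
  ![ρ1 * fw θ (hz ξ), ρ2 * fn θ (hz ξ), ρ3 * (ξ 2 + s 0 * ξ 0 + s 1 * ξ 1)]

lemma dco_meas (θ ρ1 ρ2 ρ3 : ℝ) (s : Fin 2 → ℝ) : Measurable (dco θ ρ1 ρ2 ρ3 s) := by
  apply measurable_pi_lambda
  intro i
  fin_cases i
  · simp only [dco, fw, hz, Fin.zero_eta, Matrix.cons_val_zero, Matrix.cons_val_one]
    fun_prop
  · simp only [dco, fn, hz, Fin.mk_one, Matrix.cons_val_zero, Matrix.cons_val_one]
    fun_prop
  · simp only [dco, Fin.reduceFinMk, Matrix.cons_val]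
    fun_prop

lemma inner_dco {θ ρ1 ρ2 ρ3 : ℝ} (h1 : 0 < ρ1) (h2 : 0 < ρ2) (h3 : 0 < ρ3) (s : Fin 2 → ℝ) (ξ z : E3) :
    (inner ℝ ξ z : ℝ) = ∑ i, (W840.bxL θ ρ1 ρ2 ρ3 s z) i * dco θ ρ1 ρ2 ρ3 s ξ i := by
  rw [W840.bxL_apply, Fin.sum_univ_three, PiLp.inner_apply, Fin.sum_univ_three]
  simp only [dco, fw, fn, dv, hz, Matrix.cons_val_zero, Matrix.cons_val_one, Matrix.cons_val, RCLike.inner_apply,
    conj_trivial]
  have hs := Real.sin_sq_add_cos_sq θ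
  field_simp
  linear_combination ((z 0 - s 0 * z 2) * ξ 0 + (z 1 - s 1 * z 2) * ξ 1) * (-hs)

lemma gau_bxL {θ ρ1 ρ2 ρ3 : ℝ} (h1 : 0 < ρ1) (h2 : 0 < ρ2) (h3 : 0 < ρ3) (s : Fin 2 → ℝ) (z : E3) :
    gau θ ρ1 ρ2 ρ3 s z = l1 (WithLp.ofLp (W840.bxL θ ρ1 ρ2 ρ3 s z)) := by
  rw [W840.bxL_apply]
  unfold gau l1
  simp only [Matrix.cons_val_zero, Matrix.cons_val_one, Matrix.cons_val, abs_div, abs_of_pos h1, abs_of_pos h2,
    abs_of_pos h3]

lemma inv_UU {θ ρ1 ρ2 ρ3 : ℝ} (h1 : 0 < ρ1) (h2 : 0 < ρ2) (h3 : 0 < ρ3) (s : Fin 2 → ℝ) (g : E3 → ℂ) (z z0 : E3) :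
    𝓕⁻ g (z + z0) = UU volume (dco θ ρ1 ρ2 ρ3 s) (fun ξ => g ξ * ee (inner ℝ ξ z0)) (WithLp.ofLp (W840.bxL θ ρ1 ρ2 ρ3 s z)) := by
  rw [Real.fourierInv_eq]
  unfold UU
  apply integral_congr_ae
  refine Filter.Eventually.of_forall fun ξ => ?_
  simp only
  rw [char_eq, ← inner_dco h1 h2 h3, inner_add_right, ee_add]
  ring

theorem stORT : StORT := by
  intro M
  obtain ⟨C, hC, hor⟩ := or3 M
  refine ⟨C, hC, ?_⟩
  intro ι I g θ ρ1 ρ2 ρ3 s m h1 h2 h3 hg hov z0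
  set p := dco θ ρ1 ρ2 ρ3 s with hp
  set G : ι → E3 → ℂ := fun k ξ => g k ξ * ee (inner ℝ ξ z0) with hG
  have hpm : Measurable p := dco_meas _ _ _ _ _
  have hGi : ∀ k ∈ I, Integrable (G k) := by
    intro k hk
    refine (hg k hk).mul_bdd (c := 1) ?_ ?_
    · exact (by fun_prop : Continuous fun ξ : E3 => ee (inner ℝ ξ z0)).aestronglyMeasurable
    · exact Filter.Eventually.of_forall fun y => by rw [norm_ee]
  have key := hor E3 volume p ι I G m hpm hGi ?_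
  · have conv : ∀ (f : E3 → ℝ≥0∞) (H : V3 → ℝ≥0∞), Measurable H →
        (∀ z, f (z + z0) = H (WithLp.ofLp (W840.bxL θ ρ1 ρ2 ρ3 s z))) →
        ∫⁻ z, f z * wg M θ ρ1 ρ2 ρ3 s (z - z0) = ENNReal.ofReal (ρ1 * ρ2 * ρ3) * ∫⁻ t, H t * wt M t := by
      intro f H hH hf
      rw [← lintegral_add_right_eq_self (fun z => f z * wg M θ ρ1 ρ2 ρ3 s (z - z0)) z0]
      have e1 : ∀ z, f (z + z0) * wg M θ ρ1 ρ2 ρ3 s (z + z0 - z0)
          = (fun w : E3 => H (WithLp.ofLp w) * wt M (WithLp.ofLp w)) (W840.bxL θ ρ1 ρ2 ρ3 s z) := by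
        intro z
        simp only
        rw [hf, add_sub_cancel_right]
        unfold wg wt
        rw [gau_bxL h1 h2 h3]
      simp_rw [e1]
      have hm : Measurable (fun w : E3 => H (WithLp.ofLp w) * wt M (WithLp.ofLp w)) := by
        have := wt_meas M
        fun_prop
      rw [W840.lintegral_bxL h1 h2 h3 s hm]
      congr 1
      have hvp := PiLp.volume_preserving_ofLp (Fin 3)
      have hm2 : Measurable (fun t : V3 => H t * wt M t) := hH.mul (wt_meas M)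
      exact hvp.lintegral_comp hm2
    have hUm : ∀ k ∈ I, Continuous (UU volume p (G k)) := fun k hk => UU_cont hpm (hGi k hk)
    rw [conv (fun z => ‖∑ k ∈ I, 𝓕⁻ (g k) z‖ₑ ^ 2) (fun t => ‖∑ k ∈ I, UU volume p (G k) t‖ₑ ^ 2)
      ((continuous_finsetSum _ hUm).measurable.enorm.pow_const 2) ?_]
    · have e2 : ∀ k ∈ I, ∫⁻ z, ‖𝓕⁻ (g k) z‖ₑ ^ 2 * wg M θ ρ1 ρ2 ρ3 s (z - z0)
          = ENNReal.ofReal (ρ1 * ρ2 * ρ3) * ∫⁻ t, ‖UU volume p (G k) t‖ₑ ^ 2 * wt M t := by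
        intro k hk
        apply conv (fun z => ‖𝓕⁻ (g k) z‖ₑ ^ 2) (fun t => ‖UU volume p (G k) t‖ₑ ^ 2)
          ((hUm k hk).measurable.enorm.pow_const 2)
        intro z
        rw [inv_UU h1 h2 h3]
      rw [Finset.sum_congr rfl e2, ← Finset.mul_sum]
      calc ENNReal.ofReal (ρ1 * ρ2 * ρ3) * ∫⁻ t, ‖∑ k ∈ I, UU volume p (G k) t‖ₑ ^ 2 * wt M t
          ≤ ENNReal.ofReal (ρ1 * ρ2 * ρ3) * (ENNReal.ofReal (C * m) * ∑ k ∈ I, ∫⁻ t, ‖UU volume p (G k) t‖ₑ ^ 2 * wt M t) :=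
            mul_le_mul' le_rfl key
        _ = _ := by ring
    · intro z
      congr 2
      apply Finset.sum_congr rfl
      intro k _
      rw [inv_UU h1 h2 h3]
  · intro k hk J hJ hJ2
    apply hov k hk J hJ
    intro l hl
    obtain ⟨ξ, η, hξ, hη, hd⟩ := hJ2 l hl
    refine ⟨ξ, η, fun h => hξ (by simp [hG, h]), fun h => hη (by simp [hG, h]), ?_⟩
    have d0 := hd 0
    have d1 := hd 1
    have d2 := hd 2
    simp only [hp, dco, Matrix.cons_val_zero, Matrix.cons_val_one, Matrix.cons_val] at d0 d1 d2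
    refine ⟨?_, ?_, ?_⟩
    · rw [le_div_iff₀ h1]
      have : fw θ (hz (ξ - η)) = fw θ (hz ξ) - fw θ (hz η) := by
        simp only [fw, hz, Matrix.cons_val_zero, Matrix.cons_val_one, PiLp.sub_apply]; ring
      rw [this]
      calc |fw θ (hz ξ) - fw θ (hz η)| * ρ1 = |ρ1 * fw θ (hz ξ) - ρ1 * fw θ (hz η)| := by
            rw [← mul_sub, abs_mul, abs_of_pos h1, mul_comm]
        _ ≤ 1 := d0
    · rw [le_div_iff₀ h2]
      have : fn θ (hz (ξ - η)) = fn θ (hz ξ) - fn θ (hz η) := by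
        simp only [fn, hz, Matrix.cons_val_zero, Matrix.cons_val_one, PiLp.sub_apply]; ring
      rw [this]
      calc |fn θ (hz ξ) - fn θ (hz η)| * ρ2 = |ρ2 * fn θ (hz ξ) - ρ2 * fn θ (hz η)| := by
            rw [← mul_sub, abs_mul, abs_of_pos h2, mul_comm]
        _ ≤ 1 := d1
    · rw [le_div_iff₀ h3]
      simp only [PiLp.sub_apply]
      calc |ξ 2 - η 2 + s 0 * (ξ 0 - η 0) + s 1 * (ξ 1 - η 1)| * ρ3
          = |ρ3 * (ξ 2 + s 0 * ξ 0 + s 1 * ξ 1) - ρ3 * (η 2 + s 0 * η 0 + s 1 * η 1)| := by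
            rw [← mul_sub, abs_mul, abs_of_pos h3, mul_comm]
            congr 2
            ring
        _ ≤ 1 := d2

end Vale.Agent.P122.H84
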