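import Vale.Agent.P122.H84.Abs

/-! # P122 / H84 : orthogonality in normalised coordinates (helper84) -/

open MeasureTheory Complex Set
open scoped ENNReal NNReal ContDiff FourierTransform SchwartzMap

set_option linter.all false

namespace Vale.Agent.P122.H84

section cross
variable {Ξ : Type} [MeasurableSpace Ξ]

/-- cross terms by Fubini -/
lemma cross_zero (μ : Measure Ξ) [SFinite μ] (p : Ξ → V3) (g g' : Ξ → ℂ) (hp : Measurable p) (hg : Integrable g μ)
    (hg' : Integrable g' μ) (W : V3 → ℝ) (hW : Integrable W)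
    (h0 : ∀ ξ η, g ξ ≠ 0 → g' η ≠ 0 → ∫ t, (W t : ℂ) * ee (∑ i, t i * (p ξ i - p η i)) = 0) :
    ∫ t, (UU μ p g t * (starRingEnd ℂ) (UU μ p g' t)) * (W t : ℂ) = 0 := by
  have e1 : ∀ t, (UU μ p g t * (starRingEnd ℂ) (UU μ p g' t)) * (W t : ℂ)
      = ∫ z : Ξ × Ξ, (W t : ℂ) * ((g z.1 * (starRingEnd ℂ) (g' z.2)) * ee (∑ i, t i * (p z.1 i - p z.2 i))) ∂(μ.prod μ) := by
    intro t
    have hc : (starRingEnd ℂ) (UU μ p g' t) = ∫ η, (starRingEnd ℂ) (g' η * ee (∑ i, t i * p η i)) ∂μ := by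
      unfold UU
      rw [integral_conj]
    rw [hc]
    unfold UU
    rw [← integral_prod_mul, mul_comm, ← integral_const_mul]
    apply integral_congr_ae
    refine Filter.Eventually.of_forall fun z => ?_
    simp only
    rw [map_mul, conj_ee]
    have : ee (∑ i, t i * (p z.1 i - p z.2 i)) = ee (∑ i, t i * p z.1 i) * ee (-∑ i, t i * p z.2 i) := by
      rw [← ee_add]
      congr 1
      rw [← Finset.sum_neg_distrib, ← Finset.sum_add_distrib]
      apply Finset.sum_congr rfl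
      intro i _
      ring
    rw [this]
    ring
  simp_rw [e1]
  rw [integral_integral_swap]
  · apply integral_eq_zero_of_ae
    refine Filter.Eventually.of_forall fun z => ?_
    simp only [Pi.zero_apply]
    by_cases h1 : g z.1 = 0
    · simp [h1]
    by_cases h2 : g' z.2 = 0
    · simp [h2]
    have := h0 z.1 z.2 h1 h2
    have e2 : ∀ t : V3, (W t : ℂ) * ((g z.1 * (starRingEnd ℂ) (g' z.2)) * ee (∑ i, t i * (p z.1 i - p z.2 i)))
      = (g z.1 * (starRingEnd ℂ) (g' z.2)) * ((W t : ℂ) * ee (∑ i, t i * (p z.1 i - p z.2 i))) := by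
      intro t; ring
    simp_rw [e2]
    rw [integral_const_mul, this, mul_zero]
  · have hc' : Integrable (fun η => (starRingEnd ℂ) (g' η)) μ := by
      have := (Complex.conjCLE.toContinuousLinearMap).integrable_comp hg'
      exact this
    have hW' : Integrable (fun t => (W t : ℂ)) := hW.ofReal
    have hmul : Integrable (fun z : V3 × (Ξ × Ξ) => (W z.1 : ℂ) * (g z.2.1 * (starRingEnd ℂ) (g' z.2.2)))
        (volume.prod (μ.prod μ)) := hW'.mul_prod (hg.mul_prod hc')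
    have : Function.uncurry (fun (t : V3) (z : Ξ × Ξ) => (W t : ℂ) * ((g z.1 * (starRingEnd ℂ) (g' z.2)) *
        ee (∑ i, t i * (p z.1 i - p z.2 i))))
        = fun z : V3 × (Ξ × Ξ) => ((W z.1 : ℂ) * (g z.2.1 * (starRingEnd ℂ) (g' z.2.2))) *
          ee (∑ i, z.1 i * (p z.2.1 i - p z.2.2 i)) := by
      ext ⟨t, z⟩
      simp only [Function.uncurry]
      ring
    rw [this]
    refine hmul.mul_bdd (c := 1) ?_ ?_
    · apply Measurable.aestronglyMeasurable
      fun_prop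
    · exact Filter.Eventually.of_forall fun y => by rw [norm_ee]

/-- orthogonality for one weight with cross terms zero -/
lemma orth0 (μ : Measure Ξ) [SFinite μ] (p : Ξ → V3) (hp : Measurable p) {ι : Type} [DecidableEq ι] (I : Finset ι)
    (g : ι → Ξ → ℂ) (hg : ∀ k ∈ I, Integrable (g k) μ) (W : V3 → ℝ) (hW0 : ∀ t, 0 ≤ W t) (hW : Integrable W)
    (adj : ι → ι → Prop) [DecidableRel adj] (hs : ∀ a b, adj a b → adj b a)
    (h0 : ∀ a ∈ I, ∀ b ∈ I, ¬ adj a b → ∀ ξ η, g a ξ ≠ 0 → g b η ≠ 0 →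
      ∫ t, (W t : ℂ) * ee (∑ i, t i * (p ξ i - p η i)) = 0)
    (m : ℕ) (hm : ∀ a ∈ I, (I.filter fun b => adj a b).card ≤ m) :
    ∫ t, ‖∑ k ∈ I, UU μ p (g k) t‖ ^ 2 * W t ≤ m * ∑ k ∈ I, ∫ t, ‖UU μ p (g k) t‖ ^ 2 * W t := by
  have hc : ∀ k ∈ I, Continuous (UU μ p (g k)) := fun k hk => UU_cont hp (hg k hk)
  have hint : ∀ a ∈ I, ∀ b ∈ I, Integrable (fun t => (UU μ p (g a) t * (starRingEnd ℂ) (UU μ p (g b) t)) * (W t : ℂ)) := by
    intro a ha b hb
    have h1 : Integrable (fun t => (W t : ℂ)) := hW.ofReal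
    have : (fun t => (UU μ p (g a) t * (starRingEnd ℂ) (UU μ p (g b) t)) * (W t : ℂ))
      = fun t => (W t : ℂ) * (UU μ p (g a) t * (starRingEnd ℂ) (UU μ p (g b) t)) := by ext t; ring
    rw [this]
    refine h1.mul_bdd (c := (∫ ξ, ‖g a ξ‖ ∂μ) * (∫ ξ, ‖g b ξ‖ ∂μ)) ?_ ?_
    · have h2 := hc a ha
      have h3 := hc b hb
      exact (h2.mul (Complex.continuous_conj.comp h3)).aestronglyMeasurable
    · refine Filter.Eventually.of_forall fun t => ?_
      rw [norm_mul, RCLike.norm_conj]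
      exact mul_le_mul (UU_bd _ _ _ _) (UU_bd _ _ _ _) (norm_nonneg _) (integral_nonneg fun _ => norm_nonneg _)
  have hint2 : ∀ a ∈ I, Integrable (fun t => ‖UU μ p (g a) t‖ ^ 2 * W t) := by
    intro a ha
    have : (fun t => ‖UU μ p (g a) t‖ ^ 2 * W t) = fun t => W t * ‖UU μ p (g a) t‖ ^ 2 := by ext t; ring
    rw [this]
    refine hW.mul_bdd (c := (∫ ξ, ‖g a ξ‖ ∂μ) ^ 2) ?_ ?_
    · have h2 := hc a ha
      exact (h2.norm.pow 2).aestronglyMeasurable
    · refine Filter.Eventually.of_forall fun t => ?_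
      rw [norm_pow, norm_norm]
      exact pow_le_pow_left₀ (norm_nonneg _) (UU_bd _ _ _ _) 2
  -- expansion
  have e1 : ∀ t, ‖∑ k ∈ I, UU μ p (g k) t‖ ^ 2 * W t
      = ∑ a ∈ I, ∑ b ∈ I, RCLike.re ((UU μ p (g a) t * (starRingEnd ℂ) (UU μ p (g b) t)) * (W t : ℂ)) := by
    intro t
    have : ((‖∑ k ∈ I, UU μ p (g k) t‖ ^ 2 * W t : ℝ) : ℂ)
        = ∑ a ∈ I, ∑ b ∈ I, ((UU μ p (g a) t * (starRingEnd ℂ) (UU μ p (g b) t)) * (W t : ℂ)) := by
      have h5 : (∑ k ∈ I, UU μ p (g k) t) * (starRingEnd ℂ) (∑ k ∈ I, UU μ p (g k) t)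
        = ((‖∑ k ∈ I, UU μ p (g k) t‖ : ℝ) : ℂ) ^ 2 := Complex.mul_conj' _
      push_cast
      rw [← h5, map_sum, Finset.sum_mul_sum, Finset.sum_mul]
      apply Finset.sum_congr rfl
      intro a _
      rw [Finset.sum_mul]
    have h6 := congrArg Complex.re this
    rw [Complex.ofReal_re] at h6
    rw [h6, Complex.re_sum]
    apply Finset.sum_congr rfl
    intro a _
    rw [Complex.re_sum]
    rfl
  have e2 : ∫ t, ‖∑ k ∈ I, UU μ p (g k) t‖ ^ 2 * W t
      = ∑ a ∈ I, ∑ b ∈ I, ∫ t, RCLike.re ((UU μ p (g a) t * (starRingEnd ℂ) (UU μ p (g b) t)) * (W t : ℂ)) := by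
    rw [integral_congr_ae (Filter.Eventually.of_forall e1)]
    rw [integral_finsetSum]
    · apply Finset.sum_congr rfl
      intro a ha
      rw [integral_finsetSum]
      intro b hb
      exact (hint a ha b hb).re
    · intro a ha
      apply integrable_finsetSum
      intro b hb
      exact (hint a ha b hb).re
  set X : ι → ℝ := fun k => ∫ t, ‖UU μ p (g k) t‖ ^ 2 * W t with hX
  have hX0 : ∀ k, 0 ≤ X k := fun k => integral_nonneg fun t => mul_nonneg (by positivity) (hW0 t)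
  have e3 : ∀ a ∈ I, ∀ b ∈ I, ∫ t, RCLike.re ((UU μ p (g a) t * (starRingEnd ℂ) (UU μ p (g b) t)) * (W t : ℂ))
      ≤ if adj a b then (X a + X b) / 2 else 0 := by
    intro a ha b hb
    split_ifs with hab
    · have : (X a + X b) / 2 = ∫ t, ((‖UU μ p (g a) t‖ ^ 2 * W t) + (‖UU μ p (g b) t‖ ^ 2 * W t)) / 2 := by
        rw [integral_div, integral_add (hint2 a ha) (hint2 b hb)]
      rw [this]
      apply integral_mono (hint a ha b hb).re (((hint2 a ha).add (hint2 b hb)).div_const 2)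
      intro t
      simp only [Pi.add_apply]
      calc RCLike.re ((UU μ p (g a) t * (starRingEnd ℂ) (UU μ p (g b) t)) * (W t : ℂ))
          ≤ ‖(UU μ p (g a) t * (starRingEnd ℂ) (UU μ p (g b) t)) * (W t : ℂ)‖ := RCLike.re_le_norm _
        _ = ‖UU μ p (g a) t‖ * ‖UU μ p (g b) t‖ * W t := by
            rw [norm_mul, norm_mul, RCLike.norm_conj, Complex.norm_real, Real.norm_of_nonneg (hW0 t)]
        _ ≤ _ := by
            have := mul_nonneg (sq_nonneg (‖UU μ p (g a) t‖ - ‖UU μ p (g b) t‖)) (hW0 t)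
            nlinarith
    · rw [integral_re (hint a ha b hb), cross_zero μ p (g a) (g b) hp (hg a ha) (hg b hb) W hW (h0 a ha b hb hab)]
      simp
  rw [e2]
  calc ∑ a ∈ I, ∑ b ∈ I, ∫ t, RCLike.re ((UU μ p (g a) t * (starRingEnd ℂ) (UU μ p (g b) t)) * (W t : ℂ))
      ≤ ∑ a ∈ I, ∑ b ∈ I, (if adj a b then (X a + X b) / 2 else 0) :=
        Finset.sum_le_sum fun a ha => Finset.sum_le_sum fun b hb => e3 a ha b hb
    _ = ∑ a ∈ I, ∑ b ∈ I, ((if adj a b then X a / 2 else 0) + (if adj b a then X b / 2 else 0)) := by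
        apply Finset.sum_congr rfl
        intro a ha
        apply Finset.sum_congr rfl
        intro b hb
        by_cases hab : adj a b
        · rw [if_pos hab, if_pos hab, if_pos (hs a b hab)]; ring
        · rw [if_neg hab, if_neg hab, if_neg (fun h => hab (hs b a h))]; ring
    _ = ∑ a ∈ I, ∑ b ∈ I, (if adj a b then X a / 2 else 0) + ∑ a ∈ I, ∑ b ∈ I, (if adj a b then X a / 2 else 0) := by
        simp_rw [Finset.sum_add_distrib]
        congr 1
        rw [Finset.sum_comm]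
    _ ≤ ∑ a ∈ I, (m * (X a / 2)) + ∑ a ∈ I, (m * (X a / 2)) := by
        have : ∀ a ∈ I, ∑ b ∈ I, (if adj a b then X a / 2 else 0) ≤ m * (X a / 2) := by
          intro a ha
          rw [← Finset.sum_filter, Finset.sum_const, nsmul_eq_mul]
          apply mul_le_mul_of_nonneg_right
          · exact_mod_cast hm a ha
          · have := hX0 a; linarith
        exact add_le_add (Finset.sum_le_sum this) (Finset.sum_le_sum this)
    _ = _ := by
        rw [← Finset.sum_add_distrib, Finset.mul_sum]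
        apply Finset.sum_congr rfl
        intro a _
        ring

end cross

/-- tensor product of three copies of `F` -/
noncomputable def F3 (F : ℝ → ℝ) (t : V3) : ℝ := ∏ i, F (t i)

lemma F3_cont {F : ℝ → ℝ} (hF : Continuous F) : Continuous (F3 F) := by
  unfold F3
  fun_prop

lemma F3_nonneg {F : ℝ → ℝ} (hF : ∀ s, 0 ≤ F s) (t : V3) : 0 ≤ F3 F t := by
  unfold F3
  exact Finset.prod_nonneg fun i _ => hF _

lemma int_pow2 : Integrable (fun s : ℝ => ((1 + |s|) ^ 2)⁻¹) := by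
  have h := integrable_one_add_norm (E := ℝ) (μ := volume) (r := 2) (by simp)
  refine h.congr (Filter.Eventually.of_forall fun s => ?_)
  simp only [Real.norm_eq_abs]
  rw [Real.rpow_neg (by positivity)]
  norm_cast

lemma F_int {F : ℝ → ℝ} (hF : Continuous F) (h0 : ∀ s, 0 ≤ F s)
    (hd : ∀ M : ℕ, ∃ C : ℝ, 0 ≤ C ∧ ∀ s : ℝ, F s ≤ C * ((1 + |s|) ^ M)⁻¹) : Integrable F := by
  obtain ⟨C, hC, h⟩ := hd 2
  refine (int_pow2.const_mul C).mono' hF.aestronglyMeasurable ?_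
  refine Filter.Eventually.of_forall fun s => ?_
  rw [Real.norm_of_nonneg (h0 s)]
  exact h s

lemma F3_int {F : ℝ → ℝ} (hF : Integrable F) : Integrable (F3 F) := by
  have := Integrable.fintype_prod (ι := Fin 3) (f := fun _ => F) (μ := fun _ => (volume : Measure ℝ)) (fun _ => hF)
  exact this

/-- the Fourier transform of the translates of `F3` -/
lemma F3_four {F : ℝ → ℝ} (h : ∀ η : ℝ, 1 ≤ |η| → ∫ s, (F s : ℂ) * ee (s * η) = 0) (y η : V3) (hη : ∃ i, 1 ≤ |η i|) :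
    ∫ t, ((F3 F (t - y) : ℝ) : ℂ) * ee (∑ i, t i * η i) = 0 := by
  have e1 : ∀ t : V3, ((F3 F (t - y) : ℝ) : ℂ) * ee (∑ i, t i * η i)
      = ∏ i, (fun (i : Fin 3) (s : ℝ) => ((F (s - y i) : ℝ) : ℂ) * ee (s * η i)) i (t i) := by
    intro t
    unfold F3
    rw [ee_sum]
    push_cast
    rw [← Finset.prod_mul_distrib]
    rfl
  rw [integral_congr_ae (Filter.Eventually.of_forall e1)]
  refine (integral_fintype_prod_volume_eq_prod (𝕜 := ℂ)
    (fun (i : Fin 3) (s : ℝ) => ((F (s - y i) : ℝ) : ℂ) * ee (s * η i))).trans ?_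
  obtain ⟨i, hi⟩ := hη
  apply Finset.prod_eq_zero (Finset.mem_univ i)
  have h1 := integral_add_right_eq_self (μ := (volume : Measure ℝ)) (fun s : ℝ => ((F (s - y i) : ℝ) : ℂ) * ee (s * η i)) (y i)
  rw [← h1]
  have e2 : ∀ s : ℝ, ((F (s + y i - y i) : ℝ) : ℂ) * ee ((s + y i) * η i) = ee (y i * η i) * ((F s : ℂ) * ee (s * η i)) := by
    intro s
    rw [show s + y i - y i = s by ring, show (s + y i) * η i = y i * η i + s * η i by ring, ee_add]
    ring
  simp_rw [e2]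
  rw [integral_const_mul, h _ hi, mul_zero]

lemma l1_add (s t : V3) : l1 (s + t) ≤ l1 s + l1 t := by
  unfold l1
  have h0 := abs_add_le (s 0) (t 0)
  have h1 := abs_add_le (s 1) (t 1)
  have h2 := abs_add_le (s 2) (t 2)
  simp only [Pi.add_apply]
  linarith

lemma l1_comp (s t : V3) : 1 + l1 s ≤ (1 + l1 t) * (1 + l1 (s - t)) := by
  have h := l1_add t (s - t)
  rw [add_sub_cancel] at h
  nlinarith [l1_nonneg t, l1_nonneg (s - t), mul_nonneg (l1_nonneg t) (l1_nonneg (s - t))]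

/-- Peetre -/
lemma wt_peetre (M : ℕ) (s t : V3) : wt M t ≤ ENNReal.ofReal ((1 + l1 (s - t)) ^ M) * wt M s := by
  unfold wt
  rw [← ENNReal.ofReal_mul (by have := l1_nonneg (s - t); positivity)]
  apply ENNReal.ofReal_le_ofReal
  have h1 := l1_nonneg s
  have h2 := l1_nonneg t
  have h3 := l1_nonneg (s - t)
  have h4 : (1 + l1 s) ^ M ≤ ((1 + l1 t) * (1 + l1 (s - t))) ^ M := pow_le_pow_left₀ (by linarith) (l1_comp s t) M
  rw [mul_pow] at h4
  rw [← div_eq_mul_inv, le_div_iff₀ (by positivity), inv_mul_le_iff₀ (by positivity)]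
  exact h4

lemma wt_lower {F : ℝ → ℝ} {c : ℝ} (hc : 0 < c) (hF : ∀ s, |s| ≤ 1 → c ≤ F s) (hF0 : ∀ s, 0 ≤ F s) (M : ℕ) (t : V3) :
    ENNReal.ofReal (c ^ 3 * (4 ^ M)⁻¹) * wt M t ≤ ∫⁻ y, ENNReal.ofReal (F3 F (t - y)) * wt M y := by
  set B : Set V3 := Icc (fun i => t i - 1) (fun i => t i + 1) with hB
  have hvol : volume B = 8 := by
    rw [hB, Real.volume_Icc_pi]
    have : ∀ i : Fin 3, ENNReal.ofReal (t i + 1 - (t i - 1)) = 2 := by
      intro i
      rw [show t i + 1 - (t i - 1) = 2 by ring]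
      norm_num
    simp_rw [this]
    rw [Finset.prod_const]
    norm_num
  have hpt : ∀ y ∈ B, ENNReal.ofReal (c ^ 3 * (4 ^ M)⁻¹) * wt M t ≤ ENNReal.ofReal (F3 F (t - y)) * wt M y := by
    intro y hy
    have hy' : ∀ i, |t i - y i| ≤ 1 := by
      intro i
      have h1 := hy.1 i
      have h2 := hy.2 i
      rw [abs_le]
      constructor <;> linarith
    have h1 : c ^ 3 ≤ F3 F (t - y) := by
      unfold F3
      calc c ^ 3 = ∏ _i : Fin 3, c := by simp
        _ ≤ _ := Finset.prod_le_prod (fun _ _ => hc.le) fun i _ => hF _ (hy' i)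
    have h2 : wt M t ≤ ENNReal.ofReal (4 ^ M) * wt M y := by
      refine (wt_peetre M y t).trans ?_
      gcongr
      · have := l1_nonneg (y - t); linarith
      · unfold l1
        have h3 := hy' 0
        have h4 := hy' 1
        have h5 := hy' 2
        rw [abs_sub_comm] at h3 h4 h5
        simp only [Pi.sub_apply]
        linarith
    calc ENNReal.ofReal (c ^ 3 * (4 ^ M)⁻¹) * wt M t
        ≤ ENNReal.ofReal (c ^ 3 * (4 ^ M)⁻¹) * (ENNReal.ofReal (4 ^ M) * wt M y) := by gcongr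
      _ = ENNReal.ofReal (c ^ 3) * wt M y := by
          rw [← mul_assoc, ← ENNReal.ofReal_mul (by positivity)]
          congr 2
          field_simp
      _ ≤ _ := by gcongr
  calc ENNReal.ofReal (c ^ 3 * (4 ^ M)⁻¹) * wt M t
      ≤ 8 * (ENNReal.ofReal (c ^ 3 * (4 ^ M)⁻¹) * wt M t) := by
        have : (1:ℝ≥0∞) ≤ 8 := by norm_num
        calc _ = 1 * (ENNReal.ofReal (c ^ 3 * (4 ^ M)⁻¹) * wt M t) := by rw [one_mul]
          _ ≤ _ := by gcongr
    _ = ∫⁻ _ in B, ENNReal.ofReal (c ^ 3 * (4 ^ M)⁻¹) * wt M t := by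
        rw [setLIntegral_const, hvol, mul_comm]
    _ ≤ ∫⁻ y in B, ENNReal.ofReal (F3 F (t - y)) * wt M y := by
        apply setLIntegral_mono' measurableSet_Icc hpt
    _ ≤ _ := setLIntegral_le_lintegral _ _

lemma wt_upper {F : ℝ → ℝ} (hF0 : ∀ s, 0 ≤ F s)
    (hd : ∀ M : ℕ, ∃ C : ℝ, 0 ≤ C ∧ ∀ s : ℝ, F s ≤ C * ((1 + |s|) ^ M)⁻¹) (M : ℕ) :
    ∃ C : ℝ, 0 ≤ C ∧ ∀ t : V3, ∫⁻ y, ENNReal.ofReal (F3 F (t - y)) * wt M y ≤ ENNReal.ofReal C * wt M t := by
  obtain ⟨C, hC, h⟩ := hd (M + 2)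
  set q : V3 → ℝ := fun t => ∏ i, ((1 + |t i|) ^ 2)⁻¹ with hq
  have hqi : Integrable q := by
    have := Integrable.fintype_prod (ι := Fin 3) (f := fun _ => fun s : ℝ => ((1 + |s|) ^ 2)⁻¹)
      (μ := fun _ => (volume : Measure ℝ)) (fun _ => int_pow2)
    exact this
  have hq0 : ∀ t, 0 ≤ q t := fun t => Finset.prod_nonneg fun i _ => by positivity
  refine ⟨C ^ 3 * ∫ t, q t, mul_nonneg (by positivity) (integral_nonneg hq0), fun t => ?_⟩
  have hpt : ∀ y, ENNReal.ofReal (F3 F (t - y)) * wt M y ≤ ENNReal.ofReal (C ^ 3 * q (t - y)) * wt M t := by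
    intro y
    have h1 := wt_peetre M t y
    have h2 : F3 F (t - y) * (1 + l1 (t - y)) ^ M ≤ C ^ 3 * q (t - y) := by
      have h3 : (1 + l1 (t - y)) ^ M ≤ (∏ i, (1 + |(t - y) i|)) ^ M :=
        pow_le_pow_left₀ (by have := l1_nonneg (t - y); linarith) (one_add_l1_le _) M
      have h4 : F3 F (t - y) ≤ ∏ i, (C * ((1 + |(t - y) i|) ^ (M + 2))⁻¹) := by
        unfold F3
        exact Finset.prod_le_prod (fun i _ => hF0 _) fun i _ => h _
      calc F3 F (t - y) * (1 + l1 (t - y)) ^ M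
          ≤ (∏ i, (C * ((1 + |(t - y) i|) ^ (M + 2))⁻¹)) * (∏ i, (1 + |(t - y) i|)) ^ M := by
            apply mul_le_mul h4 h3 (by have := l1_nonneg (t - y); positivity)
            exact Finset.prod_nonneg fun i _ => by positivity
        _ = C ^ 3 * q (t - y) := by
            rw [hq]
            simp only
            rw [← Finset.prod_pow, ← Finset.prod_mul_distrib]
            calc ∏ i, (C * ((1 + |(t - y) i|) ^ (M + 2))⁻¹ * (1 + |(t - y) i|) ^ M)
                = ∏ i, (C * ((1 + |(t - y) i|) ^ 2)⁻¹) := by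
                  apply Finset.prod_congr rfl
                  intro i _
                  have : (0:ℝ) < 1 + |(t - y) i| := by positivity
                  rw [pow_add]
                  field_simp
              _ = _ := by
                  rw [Finset.prod_mul_distrib, Finset.prod_const]
                  simp
    calc ENNReal.ofReal (F3 F (t - y)) * wt M y
        ≤ ENNReal.ofReal (F3 F (t - y)) * (ENNReal.ofReal ((1 + l1 (t - y)) ^ M) * wt M t) := by gcongr
      _ = ENNReal.ofReal (F3 F (t - y) * (1 + l1 (t - y)) ^ M) * wt M t := by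
          rw [← mul_assoc, ← ENNReal.ofReal_mul (F3_nonneg hF0 _)]
      _ ≤ _ := by gcongr
  have hwt : wt M t ≠ ⊤ := ENNReal.ofReal_ne_top
  calc ∫⁻ y, ENNReal.ofReal (F3 F (t - y)) * wt M y ≤ ∫⁻ y, ENNReal.ofReal (C ^ 3 * q (t - y)) * wt M t :=
        lintegral_mono hpt
    _ = (∫⁻ y, ENNReal.ofReal (C ^ 3 * q (t - y))) * wt M t := by
        rw [lintegral_mul_const' _ _ hwt]
    _ = (∫⁻ y, ENNReal.ofReal (C ^ 3 * q y)) * wt M t := by
        rw [lintegral_sub_left_eq_self (fun y => ENNReal.ofReal (C ^ 3 * q y)) t]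
    _ = _ := by
        rw [← ofReal_integral_eq_lintegral_ofReal (hqi.const_mul _)
          (Filter.Eventually.of_forall fun y => mul_nonneg (by positivity) (hq0 y)), integral_const_mul]

/-- [OR] orthogonality up to overlaps, polynomial weight -/
theorem or3 (M : ℕ) : ∃ C : ℝ, 0 ≤ C ∧ ∀ (Ξ : Type) [MeasurableSpace Ξ] (μ : Measure Ξ) [SFinite μ] (p : Ξ → V3)
    (ι : Type) (I : Finset ι) (g : ι → Ξ → ℂ) (m : ℕ), Measurable p → (∀ k ∈ I, Integrable (g k) μ) →
    (∀ k ∈ I, ∀ J ⊆ I, (∀ l ∈ J, ∃ ξ η, g k ξ ≠ 0 ∧ g l η ≠ 0 ∧ ∀ i, |p ξ i - p η i| ≤ 1) → J.card ≤ m) →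
    ∫⁻ t, ‖∑ k ∈ I, UU μ p (g k) t‖ₑ ^ 2 * wt M t ≤
      ENNReal.ofReal (C * m) * ∑ k ∈ I, ∫⁻ t, ‖UU μ p (g k) t‖ₑ ^ 2 * wt M t := by
  classical
  obtain ⟨F, hFc, hF0, ⟨c, hc, hFl⟩, hd, hFz⟩ := exists_FF
  obtain ⟨C1, hC1, hup⟩ := wt_upper hF0 hd M
  have hFi := F_int hFc hF0 hd
  have hF3i := F3_int hFi
  set c1 : ℝ := c ^ 3 * (4 ^ M)⁻¹ with hc1
  have hc1p : 0 < c1 := by positivity
  refine ⟨c1⁻¹ * C1, by positivity, ?_⟩
  intro Ξ _ μ _ p ι I g m hp hg hov
  have hUc : ∀ k ∈ I, Continuous (UU μ p (g k)) := fun k hk => UU_cont hp (hg k hk)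
  have hSc : Continuous (fun t => ∑ k ∈ I, UU μ p (g k) t) := continuous_finsetSum _ hUc
  -- one translate
  have key : ∀ y : V3, ∫⁻ t, ‖∑ k ∈ I, UU μ p (g k) t‖ₑ ^ 2 * ENNReal.ofReal (F3 F (t - y)) ≤
      ENNReal.ofReal m * ∑ k ∈ I, ∫⁻ t, ‖UU μ p (g k) t‖ₑ ^ 2 * ENNReal.ofReal (F3 F (t - y)) := by
    intro y
    have hWi : Integrable (fun t => F3 F (t - y)) := hF3i.comp_sub_right y
    have hW0 : ∀ t, 0 ≤ F3 F (t - y) := fun t => F3_nonneg hF0 _
    let adj : ι → ι → Prop := fun a b => ∃ ξ η, g a ξ ≠ 0 ∧ g b η ≠ 0 ∧ ∀ i, |p ξ i - p η i| ≤ 1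
    have hs : ∀ a b, adj a b → adj b a := by
      rintro a b ⟨ξ, η, h1, h2, h3⟩
      exact ⟨η, ξ, h2, h1, fun i => by rw [abs_sub_comm]; exact h3 i⟩
    have h := orth0 μ p hp I g hg (fun t => F3 F (t - y)) hW0 hWi adj hs ?_ m ?_
    · have conv : ∀ f : V3 → ℂ, Continuous f → (∃ B : ℝ, ∀ t, ‖f t‖ ≤ B) →
          ∫⁻ t, ‖f t‖ₑ ^ 2 * ENNReal.ofReal (F3 F (t - y)) = ENNReal.ofReal (∫ t, ‖f t‖ ^ 2 * F3 F (t - y)) := by
        rintro f hf ⟨B, hB⟩
        rw [ofReal_integral_eq_lintegral_ofReal]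
        · apply lintegral_congr
          intro t
          rw [ENNReal.ofReal_mul (by positivity), ENNReal.ofReal_pow (norm_nonneg _), ofReal_norm_eq_enorm]
        · have : (fun t => ‖f t‖ ^ 2 * F3 F (t - y)) = fun t => F3 F (t - y) * ‖f t‖ ^ 2 := by ext t; ring
          rw [this]
          refine hWi.mul_bdd (c := B ^ 2) ?_ ?_
          · exact (hf.norm.pow 2).aestronglyMeasurable
          · refine Filter.Eventually.of_forall fun t => ?_
            rw [norm_pow, norm_norm]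
            exact pow_le_pow_left₀ (norm_nonneg _) (hB t) 2
        · exact Filter.Eventually.of_forall fun t => mul_nonneg (by positivity) (hW0 t)
      rw [conv _ hSc ⟨∑ k ∈ I, ∫ ξ, ‖g k ξ‖ ∂μ, fun t => (norm_sum_le _ _).trans
        (Finset.sum_le_sum fun k _ => UU_bd _ _ _ _)⟩]
      have h2 : ∀ k ∈ I, ∫⁻ t, ‖UU μ p (g k) t‖ₑ ^ 2 * ENNReal.ofReal (F3 F (t - y))
          = ENNReal.ofReal (∫ t, ‖UU μ p (g k) t‖ ^ 2 * F3 F (t - y)) := by
        intro k hk
        exact conv _ (hUc k hk) ⟨_, fun t => UU_bd _ _ _ _⟩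
      rw [Finset.sum_congr rfl h2, ← ENNReal.ofReal_sum_of_nonneg, ← ENNReal.ofReal_mul (by positivity)]
      · exact ENNReal.ofReal_le_ofReal h
      · intro k _
        exact integral_nonneg fun t => mul_nonneg (by positivity) (hW0 t)
    · intro a ha b hb hab ξ η h1 h2
      have hex : ∃ i, 1 ≤ |p ξ i - p η i| := by
        by_contra hcon
        push Not at hcon
        exact hab ⟨ξ, η, h1, h2, fun i => (hcon i).le⟩
      exact F3_four hFz y (fun i => p ξ i - p η i) hex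
    · intro a ha
      apply hov a ha _ (Finset.filter_subset _ _)
      intro l hl
      exact (Finset.mem_filter.mp hl).2
  -- integrate over the translates
  have hF3m : Measurable (fun z : V3 × V3 => ENNReal.ofReal (F3 F (z.1 - z.2))) := by
    have := (F3_cont hFc).measurable
    fun_prop
  have hwm := wt_meas M
  have swap : ∀ f : V3 → ℝ≥0∞, Measurable f →
      ∫⁻ t, f t * ∫⁻ y, ENNReal.ofReal (F3 F (t - y)) * wt M y = ∫⁻ y, wt M y * ∫⁻ t, f t * ENNReal.ofReal (F3 F (t - y)) := by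
    intro f hf
    have h1 : ∀ t, f t * ∫⁻ y, ENNReal.ofReal (F3 F (t - y)) * wt M y
        = ∫⁻ y, f t * (ENNReal.ofReal (F3 F (t - y)) * wt M y) := by
      intro t
      rw [lintegral_const_mul]
      have := (F3_cont hFc).measurable
      fun_prop
    have h2 : ∀ y, wt M y * ∫⁻ t, f t * ENNReal.ofReal (F3 F (t - y))
        = ∫⁻ t, f t * (ENNReal.ofReal (F3 F (t - y)) * wt M y) := by
      intro y
      rw [← lintegral_const_mul]
      · apply lintegral_congr
        intro t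
        ring
      · have := (F3_cont hFc).measurable
        fun_prop
    simp_rw [h1, h2]
    rw [lintegral_lintegral_swap]
    have := (F3_cont hFc).measurable
    apply Measurable.aemeasurable
    fun_prop
  have hAm : Measurable (fun t => ‖∑ k ∈ I, UU μ p (g k) t‖ₑ ^ 2) := hSc.measurable.enorm.pow_const 2
  have hBm : ∀ k ∈ I, Measurable (fun t => ‖UU μ p (g k) t‖ₑ ^ 2) := fun k hk => (hUc k hk).measurable.enorm.pow_const 2
  have step1 : ENNReal.ofReal c1 * ∫⁻ t, ‖∑ k ∈ I, UU μ p (g k) t‖ₑ ^ 2 * wt M t ≤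
      ENNReal.ofReal m * ∑ k ∈ I, (ENNReal.ofReal C1 * ∫⁻ t, ‖UU μ p (g k) t‖ₑ ^ 2 * wt M t) := by
    calc ENNReal.ofReal c1 * ∫⁻ t, ‖∑ k ∈ I, UU μ p (g k) t‖ₑ ^ 2 * wt M t
        = ∫⁻ t, ‖∑ k ∈ I, UU μ p (g k) t‖ₑ ^ 2 * (ENNReal.ofReal c1 * wt M t) := by
          rw [← lintegral_const_mul' _ _ ENNReal.ofReal_ne_top]
          apply lintegral_congr
          intro t
          ring
      _ ≤ ∫⁻ t, ‖∑ k ∈ I, UU μ p (g k) t‖ₑ ^ 2 * ∫⁻ y, ENNReal.ofReal (F3 F (t - y)) * wt M y := by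
          apply lintegral_mono
          intro t
          exact mul_le_mul' le_rfl (wt_lower hc hFl hF0 M t)
      _ = ∫⁻ y, wt M y * ∫⁻ t, ‖∑ k ∈ I, UU μ p (g k) t‖ₑ ^ 2 * ENNReal.ofReal (F3 F (t - y)) := swap _ hAm
      _ ≤ ∫⁻ y, wt M y * (ENNReal.ofReal m * ∑ k ∈ I, ∫⁻ t, ‖UU μ p (g k) t‖ₑ ^ 2 * ENNReal.ofReal (F3 F (t - y))) := by
          apply lintegral_mono
          intro y
          exact mul_le_mul' le_rfl (key y)
      _ = ENNReal.ofReal m * ∑ k ∈ I, ∫⁻ y, wt M y * ∫⁻ t, ‖UU μ p (g k) t‖ₑ ^ 2 * ENNReal.ofReal (F3 F (t - y)) := by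
          have hmeas : ∀ k ∈ I, Measurable (fun y => wt M y * ∫⁻ t, ‖UU μ p (g k) t‖ₑ ^ 2 * ENNReal.ofReal (F3 F (t - y))) := by
            intro k hk
            apply hwm.mul
            have h3 := hBm k hk
            have h4 : Measurable (fun z : V3 × V3 => ‖UU μ p (g k) z.2‖ₑ ^ 2 * ENNReal.ofReal (F3 F (z.2 - z.1))) := by
              have h5 := (F3_cont hFc).measurable
              exact (h3.comp measurable_snd).mul (by fun_prop)
            exact h4.lintegral_prod_right'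
          rw [← lintegral_finsetSum _ hmeas, ← lintegral_const_mul' _ _ ENNReal.ofReal_ne_top]
          apply lintegral_congr
          intro y
          rw [Finset.mul_sum, Finset.mul_sum, Finset.mul_sum]
          apply Finset.sum_congr rfl
          intro k _
          ring
      _ ≤ ENNReal.ofReal m * ∑ k ∈ I, (ENNReal.ofReal C1 * ∫⁻ t, ‖UU μ p (g k) t‖ₑ ^ 2 * wt M t) := by
          gcongr with k hk
          rw [← swap _ (hBm k hk), ← lintegral_const_mul' _ _ ENNReal.ofReal_ne_top]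
          apply lintegral_mono
          intro t
          calc ‖UU μ p (g k) t‖ₑ ^ 2 * ∫⁻ y, ENNReal.ofReal (F3 F (t - y)) * wt M y
              ≤ ‖UU μ p (g k) t‖ₑ ^ 2 * (ENNReal.ofReal C1 * wt M t) := mul_le_mul' le_rfl (hup t)
            _ = _ := by ring
  have hc1e : ENNReal.ofReal c1⁻¹ * ENNReal.ofReal c1 = 1 := by
    rw [← ENNReal.ofReal_mul (by positivity), inv_mul_cancel₀ hc1p.ne', ENNReal.ofReal_one]
  calc ∫⁻ t, ‖∑ k ∈ I, UU μ p (g k) t‖ₑ ^ 2 * wt M t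
      = ENNReal.ofReal c1⁻¹ * (ENNReal.ofReal c1 * ∫⁻ t, ‖∑ k ∈ I, UU μ p (g k) t‖ₑ ^ 2 * wt M t) := by
        rw [← mul_assoc, hc1e, one_mul]
    _ ≤ ENNReal.ofReal c1⁻¹ * (ENNReal.ofReal m * ∑ k ∈ I, (ENNReal.ofReal C1 * ∫⁻ t, ‖UU μ p (g k) t‖ₑ ^ 2 * wt M t)) := by
        gcongr
    _ = _ := by
        rw [← Finset.mul_sum, ENNReal.ofReal_mul (by positivity), ENNReal.ofReal_mul (by positivity)]
        ring

end Vale.Agent.P122.H84
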